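import Vale.Agent.P225.Alg.Model.LevelSpin
import Vale.Agent.P225.Alg.Bridge

/-!
P225 connector (helper20): at the junction `J3` the conjugates of the diagonal Casimir operator by
twisting isometries satisfy the generation hypothesis of `Bridge.junction_generates`.
-/

namespace Vale.Agent.P225.Alg

open Matrix Sphere
open scoped Kronecker Classical

noncomputable section

theorem evN_rder_congr (s : Slot) (u : Fin 3) {p q : Pol} (h : evN p = evN q) :
    evN (s.rder u p) = evN (s.rder u q) := by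
  have h' : p - q ∈ K := by rw [K, LinearMap.mem_ker, map_sub, h, sub_self]
  have := s.rder_mem_K u h'
  rwa [K, LinearMap.mem_ker, map_sub, map_sub, sub_eq_zero] at this

theorem evN_tau_congr (T : Pullback) {p q : Pol} (h : evN p = evN q) :
    evN (T.τ p) = evN (T.τ q) :=
  funext fun x => by rw [T.evN_τ, T.evN_τ, h]

/-- The coefficients of a real field in the three operators. -/
def fieldCoef (σ : ℂ) : Fin 3 → Fin 3 → ℂ :=
  ![![0, 0, Complex.I], ![σ, -σ, 0], ![Complex.I, Complex.I, 0]]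

theorem rder_eq_sum (s : Slot) (u : Fin 3) (p : Pol) :
    s.rder u p = ∑ k, fieldCoef s.sgn u k • s.der k p := by
  rw [Fin.sum_univ_three]
  fin_cases u <;> simp [fieldCoef, Slot.rder, smul_add, sub_eq_add_neg]

/-- The sign of a side. -/
def sideSgn (i : Fin 2) : ℂ := if i = 0 then -1 else 1

theorem sgn_sideSlot (f i : Fin 2) : (sideSlot f i).sgn = sideSgn i := by
  fin_cases i <;> simp [sideSlot, sideSgn, Slot.sgn]

theorem sideSgn_sq (i : Fin 2) : sideSgn i * sideSgn i = 1 := by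
  fin_cases i <;> simp [sideSgn]

/-- The spin matrix of a real field. -/
def fieldMat (a : ℕ) (i : Fin 2) (u : Fin 3) :
    Matrix (Fin (a + 1) × Fin (a + 1)) (Fin (a + 1) × Fin (a + 1)) ℂ :=
  ∑ k, fieldCoef (sideSgn i) u k • sideMat a i k

theorem rder_rder_spinVec (a b : ℕ) (i i' : Fin 2) (u u' : Fin 3) (q : SIdx a b) :
    (sideSlot 0 i).rder u ((sideSlot 1 i').rder u' (spinVec a b q)) =
      ∑ r, (fieldMat a i u ⊗ₖ fieldMat b i' u') r q • spinVec a b r := by
  have e : fieldMat a i u ⊗ₖ fieldMat b i' u' = ∑ k, ∑ k',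
      (fieldCoef (sideSgn i) u k * fieldCoef (sideSgn i') u' k') •
        (sideMat a i k ⊗ₖ sideMat b i' k') := by
    simp only [fieldMat, ← kron_apply, map_sum, map_smul, LinearMap.sum_apply, LinearMap.smul_apply,
      Finset.smul_sum, smul_smul]
    rw [Finset.sum_comm]
    exact Finset.sum_congr rfl fun k _ => Finset.sum_congr rfl fun k' _ => by rw [mul_comm]
  calc (sideSlot 0 i).rder u ((sideSlot 1 i').rder u' (spinVec a b q))
      = ∑ k, ∑ k', (fieldCoef (sideSgn i) u k * fieldCoef (sideSgn i') u' k') •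
          ∑ r, (sideMat a i k ⊗ₖ sideMat b i' k') r q • spinVec a b r := by
        rw [rder_eq_sum, sgn_sideSlot]
        refine Finset.sum_congr rfl fun k _ => ?_
        rw [rder_eq_sum, sgn_sideSlot, map_sum, Finset.smul_sum]
        refine Finset.sum_congr rfl fun k' _ => ?_
        rw [Derivation.map_smul, der_der_spinVec, smul_smul]
    _ = _ := by
        rw [e]
        simp only [Matrix.sum_apply, Matrix.smul_apply, Finset.sum_smul, Finset.smul_sum, smul_smul,
          smul_eq_mul]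
        rw [Finset.sum_comm (s := (Finset.univ : Finset (SIdx a b)))]
        refine Finset.sum_congr rfl fun k _ => ?_
        exact Finset.sum_comm

theorem D_rder (u : Fin 3) (p : Pol) :
    Slot.D.rder u p = (Slot.R 0).rder u p + (Slot.R 1).rder u p := by
  simp only [rder_eq_sum, Slot.diag_eq, Derivation.add_apply, smul_add, Finset.sum_add_distrib]
  rfl

theorem rder_comm {s t : Slot} (h : s.Indep t) (u v : Fin 3) (p : Pol) :
    s.rder u (t.rder v p) = t.rder v (s.rder u p) := by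
  simp only [rder_eq_sum, map_sum, Derivation.map_smul, Slot.der_comm h, Finset.smul_sum]
  rw [Finset.sum_comm]
  exact Finset.sum_congr rfl fun k _ => Finset.sum_congr rfl fun l _ => smul_comm _ _ _

theorem cas_eq_rder (s : Slot) (p : Pol) :
    s.triple.cas p = -∑ u : Fin 3, s.rder u (s.rder u p) := by rw [sum_rder_sq, neg_neg]

theorem cas_D_eq (p : Pol) : Slot.D.triple.cas p = (Slot.R 0).triple.cas p +
    (Slot.R 1).triple.cas p - (2 : ℂ) • ∑ u : Fin 3, (Slot.R 0).rder u ((Slot.R 1).rder u p) := by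
  simp only [cas_eq_rder, D_rder, map_add,
    rder_comm (s := Slot.R 1) (t := Slot.R 0) rfl, Finset.sum_add_distrib]
  module

theorem cas_sideSlot (f i : Fin 2) (p : Pol) :
    (sideSlot f i).triple.cas p = (Slot.R f).triple.cas p := by
  fin_cases i
  · exact Slot.cas_left_eq f p
  · rfl

/-- An isometry of the junction `J3` which sends the fields of `R 0` to signed fields of one side of
the first factor, and those of `R 1` to fields of one side of the second factor. -/
structure Twist (T : Pullback) (s₀ s₁ : Fin 2) (σ : Fin 3 ≃ Fin 3) (ε : Fin 3 → ℂ) (η : ℂ) :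
    Prop where
  ε_sq : ∀ u, ε u * ε u = 1
  η_sq : η * η = 1
  carry₀ : ∀ u p, evN (T.τ ((Slot.R 0).rder u p)) =
    evN (ε u • (sideSlot 0 s₀).rder (σ u) (T.τ p))
  carry₁ : ∀ u p, evN (T.τ ((Slot.R 1).rder u p)) = evN (η • (sideSlot 1 s₁).rder u (T.τ p))

/-- The bilinear part of the conjugated Casimir operator. -/
def mixOp (s₀ s₁ : Fin 2) (v u : Fin 3) : Pol →ₗ[ℂ] Pol :=
  ((sideSlot 0 s₀).rder v).toLinearMap ∘ₗ ((sideSlot 1 s₁).rder u).toLinearMap

theorem mixOp_mem_K (s₀ s₁ : Fin 2) (v u : Fin 3) : ∀ p ∈ K, mixOp s₀ s₁ v u p ∈ K :=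
  fun _ hp => Slot.rder_mem_K _ _ (Slot.rder_mem_K _ _ hp)

/-- The conjugated Casimir operator. -/
def conjOp (s₀ s₁ : Fin 2) (σ : Fin 3 ≃ Fin 3) (ε : Fin 3 → ℂ) (η : ℂ) : Pol →ₗ[ℂ] Pol :=
  (Slot.R 0).triple.cas + (Slot.R 1).triple.cas -
    (2 : ℂ) • ∑ u, (ε u * η) • mixOp s₀ s₁ (σ u) u

theorem cas_mem_K (s : Slot) {p : Pol} (h : p ∈ K) : s.triple.cas p ∈ K := by
  rw [cas_eq_rder]
  exact K.neg_mem (K.sum_mem fun u _ => Slot.rder_mem_K _ _ (Slot.rder_mem_K _ _ h))

theorem conjOp_congr (s₀ s₁ : Fin 2) (σ : Fin 3 ≃ Fin 3) (ε : Fin 3 → ℂ) (η : ℂ) {p q : Pol}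
    (h : evN p = evN q) : evN (conjOp s₀ s₁ σ ε η p) = evN (conjOp s₀ s₁ σ ε η q) := by
  have h' : p - q ∈ K := by rw [K, LinearMap.mem_ker, map_sub, h, sub_self]
  have h2 : conjOp s₀ s₁ σ ε η (p - q) ∈ K := by
    simp only [conjOp, LinearMap.sub_apply, LinearMap.add_apply, LinearMap.smul_apply,
      LinearMap.sum_apply]
    exact K.sub_mem (K.add_mem (cas_mem_K _ h') (cas_mem_K _ h'))
      (K.smul_mem _ (K.sum_mem fun u _ => K.smul_mem _ (mixOp_mem_K _ _ _ _ _ h')))
  rwa [map_sub, K, LinearMap.mem_ker, map_sub, sub_eq_zero] at h2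

namespace Twist

variable {T : Pullback} {s₀ s₁ : Fin 2} {σ : Fin 3 ≃ Fin 3} {ε : Fin 3 → ℂ} {η : ℂ}
  (h : Twist T s₀ s₁ σ ε η)
include h

theorem carry_cas₀ (p : Pol) :
    evN (T.τ ((Slot.R 0).triple.cas p)) = evN ((Slot.R 0).triple.cas (T.τ p)) := by
  rw [← cas_sideSlot 0 s₀ (T.τ p), cas_eq_rder, cas_eq_rder, map_neg, map_neg, map_neg, map_sum,
    map_sum, map_sum, ← Equiv.sum_comp σ (fun u => evN ((sideSlot 0 s₀).rder u
      ((sideSlot 0 s₀).rder u (T.τ p))))]
  congr 1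
  refine Finset.sum_congr rfl fun u _ => ?_
  rw [h.carry₀, map_smul, evN_rder_congr _ _ (h.carry₀ u p), Derivation.map_smul, map_smul,
    smul_smul, h.ε_sq, one_smul]

theorem carry_cas₁ (p : Pol) :
    evN (T.τ ((Slot.R 1).triple.cas p)) = evN ((Slot.R 1).triple.cas (T.τ p)) := by
  rw [← cas_sideSlot 1 s₁ (T.τ p), cas_eq_rder, cas_eq_rder, map_neg, map_neg, map_neg, map_sum,
    map_sum, map_sum]
  congr 1
  refine Finset.sum_congr rfl fun u _ => ?_
  rw [h.carry₁, map_smul, evN_rder_congr _ _ (h.carry₁ u p), Derivation.map_smul, map_smul,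
    smul_smul, h.η_sq, one_smul]

theorem carry_casD (p : Pol) :
    evN (T.τ (Slot.D.triple.cas p)) = evN (conjOp s₀ s₁ σ ε η (T.τ p)) := by
  have e : ∀ u, evN (T.τ ((Slot.R 0).rder u ((Slot.R 1).rder u p))) =
      evN ((ε u * η) • mixOp s₀ s₁ (σ u) u (T.τ p)) := fun u => by
    rw [h.carry₀, map_smul, evN_rder_congr _ _ (h.carry₁ u p), Derivation.map_smul, map_smul,
      smul_smul, map_smul]
    rfl
  simp only [cas_D_eq, conjOp, map_sub, map_add, map_smul, map_sum, LinearMap.sub_apply,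
    LinearMap.add_apply, LinearMap.smul_apply, LinearMap.sum_apply, h.carry_cas₀, h.carry_cas₁, e]

theorem mat_zero_off {i j : St} (hne : j.blk.level 0 ≠ i.blk.level 0) : T.M j i = 0 := by
  by_cases hla : j.1.la = i.1.la
  · refine T.M_eq_zero (r := 1) (r' := 1) (fun p => h.carry_cas₁ p) ?_
    intro e
    exact hne (Prod.ext hla e)
  · exact T.M_eq_zero (r := 0) (r' := 0) (fun p => h.carry_cas₀ p) hla

end Twist

variable (T : Pullback) (a b : ℕ)

/-- The matrix of an isometry on a level of `J3`. -/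
def isoMat : Matrix (Fib 0 (a, b)) (Fib 0 (a, b)) ℝ := Matrix.of fun j i => T.M j.1 i.1

/-- The diagonal Casimir operator on a level of `J3`. -/
def casMat : Matrix (Fib 0 (a, b)) (Fib 0 (a, b)) ℝ :=
  Matrix.diagonal fun i => Blk.cas i.1.blk.lc

/-- The conjugated Casimir matrix. -/
def genMat : Matrix (Fib 0 (a, b)) (Fib 0 (a, b)) ℝ := isoMat T a b * casMat a b * (isoMat T a b)ᵀ

variable {T a b} {s₀ s₁ : Fin 2} {σ : Fin 3 ≃ Fin 3} {ε : Fin 3 → ℂ} {η : ℂ}
  (h : Twist T s₀ s₁ σ ε η)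
include h

theorem Twist.zero_off_level (i : Fib 0 (a, b)) (j : St)
    (hj : j ∉ (Finset.univ : Finset (Fib 0 (a, b))).image Subtype.val) : T.M j i.1 = 0 := by
  refine h.mat_zero_off fun e => hj (Finset.mem_image.2 ⟨⟨j, e.trans i.2⟩, Finset.mem_univ _, rfl⟩)

theorem Twist.isoMat_orth : (isoMat T a b)ᵀ * isoMat T a b = 1 := by
  ext i k
  rw [Matrix.mul_apply, Matrix.one_apply]
  have e := T.orth (k := k.1) (h.zero_off_level i)
  rw [Finset.sum_image fun x _ y _ e => Subtype.ext e] at e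
  simp only [Matrix.transpose_apply, isoMat, Matrix.of_apply, Subtype.ext_iff]
  convert e

theorem Twist.evN_tau_Q (i : Fib 0 (a, b)) :
    evN (T.τ (Q i.1)) = evN (∑ j, (isoMat T a b j i : ℂ) • Q j.1) := by
  funext x
  rw [T.evN_τ, map_sum, Finset.sum_apply, evN_apply, ← ofReal_Y,
    T.expand_on (h.zero_off_level i), Finset.sum_image fun x _ y _ e => Subtype.ext e]
  push_cast
  refine Finset.sum_congr rfl fun j _ => ?_
  rw [map_smul, Pi.smul_apply, evN_apply, ← ofReal_Y, smul_eq_mul]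
  rfl

/-- The spin matrix of the conjugated Casimir operator. -/
def conjMat (a b : ℕ) (s₀ s₁ : Fin 2) (σ : Fin 3 ≃ Fin 3) (ε : Fin 3 → ℂ) (η : ℂ) :
    Matrix (SIdx a b) (SIdx a b) ℂ :=
  ((Blk.cas a + Blk.cas b : ℝ) : ℂ) • 1 -
    (2 : ℂ) • ∑ u, (ε u * η) • (fieldMat a s₀ (σ u) ⊗ₖ fieldMat b s₁ u)

theorem Twist.genMat_eq :
    (genMat T a b).map (fun x : ℝ => (x : ℂ)) =
      spinR a b * conjMat a b s₀ s₁ σ ε η * spinQ a b := by
  set A : Matrix (Fib 0 (a, b)) (Fib 0 (a, b)) ℂ :=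
    Matrix.of fun j i => ip (Q j.1) (conjOp s₀ s₁ σ ε η (Q i.1))
  set U : Matrix (Fib 0 (a, b)) (Fib 0 (a, b)) ℂ := (isoMat T a b).map fun x : ℝ => (x : ℂ)
  have hA : A = spinR a b * conjMat a b s₀ s₁ σ ε η * spinQ a b := by
    have hcas : ∀ (f : Fin 2) (j i : Fib 0 (a, b)),
        ip (Q j.1) ((Slot.R f).triple.cas (Q i.1)) =
          ((Blk.cas (![a, b] f) : ℝ) : ℂ) * (1 : Matrix (Fib 0 (a, b)) (Fib 0 (a, b)) ℂ) j i := by
      intro f j i
      have e := evN_congr (Pullback.ev_cas_rSlot i.1 f.castSucc)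
      have hl : Pullback.rLabel i.1.1 f.castSucc = ![a, b] f := by
        fin_cases f
        · exact congrArg Prod.fst i.2
        · exact congrArg Prod.snd i.2
      rw [hl] at e
      have e2 : (Slot.R f) = Pullback.rSlot f.castSucc := by fin_cases f <;> rfl
      rw [e2, ip_congr rfl e, ip_smul_right, ip_Q]
      simp [Matrix.one_apply, Subtype.ext_iff]
    ext j i
    simp only [A, Matrix.of_apply, conjOp, LinearMap.sub_apply, LinearMap.add_apply,
      LinearMap.smul_apply, LinearMap.sum_apply]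
    rw [← ipR_apply]
    simp only [map_sub, map_add, map_smul, map_sum, smul_eq_mul, ipR_apply, hcas]
    have e : ∀ u, ip (Q j.1) (mixOp s₀ s₁ (σ u) u (Q i.1)) =
        (spinR a b * (fieldMat a s₀ (σ u) ⊗ₖ fieldMat b s₁ u) * spinQ a b) j i := fun u =>
      ip_Q_apply _ (mixOp_mem_K _ _ _ _) _ (fun q => by
        show evN ((sideSlot 0 s₀).rder (σ u) ((sideSlot 1 s₁).rder u _)) = _
        rw [rder_rder_spinVec]) j i
    simp only [e, conjMat, Matrix.mul_sub, Matrix.sub_mul, Matrix.mul_smul, Matrix.smul_mul,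
      Matrix.mul_sum, Matrix.sum_mul, Matrix.mul_one, spinR_mul_spinQ, Matrix.sub_apply,
      Matrix.smul_apply, Matrix.sum_apply, smul_eq_mul, Complex.ofReal_add, add_mul]
    rfl
  have hcomm : A * U = U * (casMat a b).map fun x : ℝ => (x : ℂ) := by
    ext j k
    have e1 : (A * U) j k = ip (Q j.1) (conjOp s₀ s₁ σ ε η (∑ i, (isoMat T a b i k : ℂ) • Q i.1)) := by
      rw [map_sum, ip_sum_right, Matrix.mul_apply]
      refine Finset.sum_congr rfl fun i _ => ?_
      rw [map_smul, ip_smul_right, mul_comm]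
      rfl
    rw [e1, ip_congr rfl (conjOp_congr _ _ _ _ _ (h.evN_tau_Q k).symm),
      ip_congr rfl (h.carry_casD (Q k.1)).symm]
    have e2 := evN_tau_congr T (evN_congr (Pullback.ev_cas_rSlot k.1 2))
    rw [ip_congr rfl (show evN (T.τ (Slot.D.triple.cas (Q k.1))) =
        evN ((Blk.cas k.1.blk.lc : ℂ) • T.τ (Q k.1)) by
          rw [← map_smul T.τ]; exact e2),
      ip_smul_right, casMat, Matrix.diagonal_map (by simp), Matrix.mul_diagonal, mul_comm]
    simp only [U, Matrix.map_apply, isoMat, Matrix.of_apply]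
    rw [← cfQ, T.cfQ_τ]
  have horth : U * Uᵀ = 1 := by
    refine mul_eq_one_comm.1 ?_
    rw [show Uᵀ * U = ((isoMat T a b)ᵀ * isoMat T a b).map (fun x : ℝ => (x : ℂ)) from
      (Matrix.map_mul (f := Complex.ofRealHom)).symm, h.isoMat_orth]
    simp
  calc (genMat T a b).map (fun x : ℝ => (x : ℂ))
      = U * (casMat a b).map (fun x : ℝ => (x : ℂ)) * Uᵀ := by
        rw [genMat, ← Matrix.transpose_map]
        exact (Matrix.map_mul (f := Complex.ofRealHom)).trans
          (congrArg (· * _) (Matrix.map_mul (f := Complex.ofRealHom)))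
    _ = A := by rw [← hcomm, Matrix.mul_assoc, horth, Matrix.mul_one]
    _ = _ := hA

omit h

/-! ### Generation -/

variable {ι : Type*} [Fintype ι] [DecidableEq ι] {E : Type*}

/-- The excursion generators on finitely many levels of `J3`. -/
def genFam (al bl : ι → ℕ) (κ : ι → ℝ) (T : E → Pullback) (e : E) :
    Fam ℝ fun L => Fib 0 (al L, bl L) :=
  fun L => κ L • genMat (T e) (al L) (bl L)

/-- The isometries contain enough twists to separate each pair of fields. -/
def Covers (T : E → Pullback) : Prop :=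
  ∀ (s₀ s₁ : Fin 2) (v u : Fin 3), ∃ (m : ℕ) (e : Fin m → E) (c : Fin m → ℂ)
    (σ : Fin 3 ≃ Fin 3) (ε : Fin m → Fin 3 → ℂ) (η : Fin m → ℂ),
    (∀ n, Twist (T (e n)) s₀ s₁ σ (ε n) (η n)) ∧ σ u = v ∧
    ∀ w, ∑ n, c n * (ε n w * η n) = if w = u then 1 else 0

theorem sideMat_eq_field (a : ℕ) (i : Fin 2) :
    sideMat a i 0 = (sideSgn i / 2) • fieldMat a i 1 + (-Complex.I / 2) • fieldMat a i 2 ∧
    sideMat a i 1 = (-sideSgn i / 2) • fieldMat a i 1 + (-Complex.I / 2) • fieldMat a i 2 ∧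
    sideMat a i 2 = (-Complex.I) • fieldMat a i 0 := by
  have hI := Complex.I_mul_I
  have hs := sideSgn_sq i
  refine ⟨?_, ?_, ?_⟩ <;> simp [fieldMat, fieldCoef, Fin.sum_univ_three, smul_add, smul_smul,
    div_mul_eq_mul_div, neg_div, hI, hs] <;> module

theorem gens_eq_sideMat {ι : Type*} (al : ι → ℕ) (p : Fin 2 × Fin 3) (L : ι) :
    gens spinTop spinF spinE al p L = sideMat (al L) p.1 (![2, 0, 1] p.2) := by
  obtain ⟨i, j⟩ := p
  fin_cases i <;> fin_cases j <;> rfl

variable {al bl : ι → ℕ} {κ : ι → ℝ} {T : E → Pullback}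

/-- At `J3` the twisted excursions and one scalar per level generate every matrix family. -/
theorem level_generates (ha : ∀ L, 1 ≤ al L) (hb : ∀ L, 1 ≤ bl L) (hκ : ∀ L, κ L ≠ 0)
    (hsep : Function.Injective fun L =>
      (((κ L : ℂ)) ^ 2 * ((bl L : ℂ) * (bl L + 2)), ((κ L : ℂ)) ^ 2 * ((al L : ℂ) * (al L + 2))))
    (hT : Covers T) (P : Submodule ℝ (Fam ℝ fun L => Fib 0 (al L, bl L)))
    (hW : Set.range (genFam al bl κ T) ∪ Set.range (fun L => Pi.single L 1) ⊆ P)
    (hP : ∀ Y ∈ Set.range (genFam al bl κ T) ∪ Set.range (fun L => Pi.single L 1), ∀ Z ∈ P,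
      Y * Z - Z * Y ∈ P) : P = ⊤ := by
  set W : Set (Fam ℝ fun L => Fib 0 (al L, bl L)) :=
    Set.range (genFam al bl κ T) ∪ Set.range (fun L => Pi.single L 1)
  let Qs : ∀ L, Matrix (SpinIdx al bl L) (Fib 0 (al L, bl L)) ℂ := fun L => spinQ (al L) (bl L)
  let Rs : ∀ L, Matrix (Fib 0 (al L, bl L)) (SpinIdx al bl L) ℂ := fun L => spinR (al L) (bl L)
  set S := Submodule.span ℂ (toSpin Qs Rs '' W)
  refine junction_generates ha hb Qs Rs (fun L => spinQ_mul_spinR _ _)
    (fun L => spinR_mul_spinQ _ _) (fun L => (κ L : ℂ)) (fun L => Complex.ofReal_ne_zero.2 (hκ L))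
    hsep W (fun p q => ?_) (fun L => Submodule.subset_span (Or.inr ⟨L, rfl⟩)) P hW hP
  have hone : ∀ c : ι → ℂ, (fun L => c L • 1 : Fam ℂ (SpinIdx al bl)) ∈ S := by
    intro c
    have e : ∀ L, (Pi.single L 1 : Fam ℂ (SpinIdx al bl)) ∈ S := by
      intro L
      refine Submodule.subset_span ⟨Pi.single L 1, Or.inr ⟨L, rfl⟩, ?_⟩
      funext L'
      rcases eq_or_ne L' L with rfl | hne
      · have e : ((1 : Matrix (Fib 0 (al L', bl L')) (Fib 0 (al L', bl L')) ℝ).map
            fun x : ℝ => (x : ℂ)) = 1 := by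
          ext i j; simp [Matrix.one_apply, apply_ite Complex.ofReal]
        simp [toSpin, Qs, Rs, e, spinQ_mul_spinR]
      · simp [toSpin, Pi.single_eq_of_ne hne]
    convert S.sum_mem (t := (Finset.univ : Finset ι)) fun L _ => S.smul_mem (c L) (e L) using 1
    funext L
    rw [Finset.sum_apply, Finset.sum_eq_single L]
    · simp
    · intro L' _ hne; simp [Pi.single_eq_of_ne hne.symm]
    · simp
  let pairF : Fin 2 → Fin 3 → Fin 2 → Fin 3 → Fam ℂ (SpinIdx al bl) := fun i v i' u L =>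
    (κ L : ℂ) • (fieldMat (al L) i v ⊗ₖ fieldMat (bl L) i' u)
  have hpair : ∀ i v i' u, pairF i v i' u ∈ S := by
    intro i v i' u
    obtain ⟨m, e, c, σ, ε, η, htw, hσ, hsum⟩ := hT i i' v u
    have hmem : (∑ n, c n • toSpin Qs Rs (genFam al bl κ T (e n))) ∈ S :=
      S.sum_mem fun n _ => S.smul_mem _ (Submodule.subset_span ⟨_, Or.inl ⟨e n, rfl⟩, rfl⟩)
    have h1 := S.sub_mem (hone fun L => (κ L : ℂ) *
      ((∑ n, c n) * ((Blk.cas (al L) + Blk.cas (bl L) : ℝ) : ℂ))) hmem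
    convert S.smul_mem (1 / 2 : ℂ) h1 using 1
    funext L
    have hgen : ∀ n, toSpin Qs Rs (genFam al bl κ T (e n)) L =
        (κ L : ℂ) • conjMat (al L) (bl L) i i' σ (ε n) (η n) := by
      intro n
      have e1 : (κ L • genMat (T (e n)) (al L) (bl L)).map (fun x : ℝ => (x : ℂ)) =
          (κ L : ℂ) • (genMat (T (e n)) (al L) (bl L)).map (fun x : ℝ => (x : ℂ)) := by
        ext x y; simp
      simp only [toSpin, genFam, Qs, Rs]
      rw [e1, (htw n).genMat_eq, Matrix.mul_smul, Matrix.smul_mul,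
        ← Matrix.mul_assoc (spinQ _ _), ← Matrix.mul_assoc (spinQ _ _), spinQ_mul_spinR,
        Matrix.one_mul, Matrix.mul_assoc, spinQ_mul_spinR, Matrix.mul_one]
    have hmix : ∑ n, c n • ∑ w, (ε n w * η n) •
        (fieldMat (al L) i (σ w) ⊗ₖ fieldMat (bl L) i' w) =
        fieldMat (al L) i v ⊗ₖ fieldMat (bl L) i' u := by
      simp only [Finset.smul_sum, smul_smul]
      rw [Finset.sum_comm]
      simp only [← Finset.sum_smul, hsum, ite_smul, one_smul, zero_smul, Finset.sum_ite_eq',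
        Finset.mem_univ, if_true, hσ]
    have hsumn : ∑ n, c n • toSpin Qs Rs (genFam al bl κ T (e n)) L =
        ((κ L : ℂ) * ((∑ n, c n) * ((Blk.cas (al L) + Blk.cas (bl L) : ℝ) : ℂ))) • 1 -
          ((κ L : ℂ) * 2) • (fieldMat (al L) i v ⊗ₖ fieldMat (bl L) i' u) := by
      rw [← hmix, Finset.smul_sum, Finset.sum_mul, Finset.mul_sum, Finset.sum_smul,
        ← Finset.sum_sub_distrib]
      refine Finset.sum_congr rfl fun n _ => ?_
      rw [hgen, conjMat]
      module
    rw [Pi.smul_apply, Pi.sub_apply, Finset.sum_apply]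
    simp only [Pi.smul_apply]
    rw [hsumn, sub_sub_cancel, smul_smul]
    show (κ L : ℂ) • _ = _
    congr 1
    ring
  have hside : ∀ (a : ℕ) (i : Fin 2) (k : Fin 3), ∃ d : Fin 3 → ℂ, ∀ a' : ℕ,
      sideMat a' i k = ∑ w, d w • fieldMat a' i w := by
    intro _ i k
    fin_cases k
    · exact ⟨![0, sideSgn i / 2, -Complex.I / 2], fun a' => by
        simpa [Fin.sum_univ_three] using (sideMat_eq_field a' i).1⟩
    · exact ⟨![0, -sideSgn i / 2, -Complex.I / 2], fun a' => by
        simpa [Fin.sum_univ_three] using (sideMat_eq_field a' i).2.1⟩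
    · exact ⟨![-Complex.I, 0, 0], fun a' => by
        simpa [Fin.sum_univ_three] using (sideMat_eq_field a' i).2.2⟩
  obtain ⟨d, hd⟩ := hside 0 p.1 (![2, 0, 1] p.2)
  obtain ⟨d', hd'⟩ := hside 0 q.1 (![2, 0, 1] q.2)
  convert S.sum_mem (t := (Finset.univ : Finset (Fin 3 × Fin 3))) fun w _ =>
    S.smul_mem (d w.1 * d' w.2) (hpair p.1 w.1 q.1 w.2) using 1
  funext L
  rw [gk_apply, gens_eq_sideMat, gens_eq_sideMat, hd, hd', Finset.sum_apply, Fintype.sum_prod_type]
  simp only [pairF, Pi.smul_apply, ← kron_apply, map_sum, map_smul, LinearMap.sum_apply,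
    LinearMap.smul_apply, Finset.smul_sum, smul_smul]
  rw [Finset.sum_comm]
  refine Finset.sum_congr rfl fun x _ => Finset.sum_congr rfl fun y _ => ?_
  congr 1
  ring

end

end Vale.Agent.P225.Alg
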