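import Vale.Agent.P225.Alg.Model.Gen
import Vale.Agent.P225.Sphere.Op

/-!
P225 connector (helper20): the 48 isometries of the junction `J3`, `(x, y) ↦ (e₀ x · h, e₁ y)` with
`e = id` or the inverse and `h` in the tetrahedral list, separate all pairs of fields.
-/

namespace Vale.Agent.P225.Alg

open Sphere
open scoped Quaternion Classical

noncomputable section

theorem rot_mul_rot_neg (u : Fin 3) (t : ℝ) : rot u t * rot u (-t) = 1 := by
  apply Subtype.ext
  ext <;> fin_cases u <;>
    simp [rot, Quaternion.re_one, Quaternion.imI_one, Quaternion.imJ_one, Quaternion.imK_one] <;>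
    first | nlinarith [Real.sin_sq_add_cos_sq t] | ring

theorem rot_inv (u : Fin 3) (t : ℝ) : (rot u t)⁻¹ = rot u (-t) :=
  inv_eq_of_mul_eq_one_right (rot_mul_rot_neg u t)

/-- The quaternions `1, i, j, k`. -/
def unitq (n : Fin 4) : ℍ[ℝ] := ![⟨1, 0, 0, 0⟩, ⟨0, 1, 0, 0⟩, ⟨0, 0, 1, 0⟩, ⟨0, 0, 0, 1⟩] n

@[simp] theorem unitq_re (n : Fin 4) : (unitq n).re = if n = 0 then 1 else 0 := by
  fin_cases n <;> rfl

@[simp] theorem unitq_imI (n : Fin 4) : (unitq n).imI = if n = 1 then 1 else 0 := by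
  fin_cases n <;> rfl

@[simp] theorem unitq_imJ (n : Fin 4) : (unitq n).imJ = if n = 2 then 1 else 0 := by
  fin_cases n <;> rfl

@[simp] theorem unitq_imK (n : Fin 4) : (unitq n).imK = if n = 3 then 1 else 0 := by
  fin_cases n <;> rfl

/-- The units as points of the sphere. -/
def unitQ (n : Fin 4) : S3 :=
  ⟨unitq n, by
    rw [mem_sphere_zero_iff_norm, ← sq_eq_sq₀ (norm_nonneg _) zero_le_one, sq,
      ← Quaternion.normSq_eq_norm_mul_self, Quaternion.normSq_def']
    fin_cases n <;> simp⟩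

/-- The quaternion `(1 + i + j + k) / 2`. -/
def omegaq : ℍ[ℝ] := ⟨1 / 2, 1 / 2, 1 / 2, 1 / 2⟩

@[simp] theorem omegaq_re : omegaq.re = 1 / 2 := rfl

@[simp] theorem omegaq_imI : omegaq.imI = 1 / 2 := rfl

@[simp] theorem omegaq_imJ : omegaq.imJ = 1 / 2 := rfl

@[simp] theorem omegaq_imK : omegaq.imK = 1 / 2 := rfl

/-- The point `(1 + i + j + k) / 2` of the sphere. -/
def omegaQ : S3 :=
  ⟨omegaq, by
    rw [mem_sphere_zero_iff_norm, ← sq_eq_sq₀ (norm_nonneg _) zero_le_one, sq,
      ← Quaternion.normSq_eq_norm_mul_self, Quaternion.normSq_def']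
    norm_num⟩

/-- The sign of the conjugation by a unit. -/
def unitSgn (n : Fin 4) (u : Fin 3) : ℝ := if n = 0 ∨ (n : ℕ) = u + 1 then 1 else -1

theorem unitSgn_sq (n : Fin 4) (u : Fin 3) : unitSgn n u * unitSgn n u = 1 := by
  unfold unitSgn; split_ifs <;> norm_num

theorem rot_mul_unitQ (n : Fin 4) (u : Fin 3) (t : ℝ) :
    rot u t * unitQ n = unitQ n * rot u (unitSgn n u * t) := by
  apply Subtype.ext
  ext <;> fin_cases n <;> fin_cases u <;> simp [rot, unitQ, unitSgn]

theorem rot_mul_omega (u : Fin 3) (t : ℝ) : rot u t * omegaQ = omegaQ * rot (u + 2) t := by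
  apply Subtype.ext
  ext <;> fin_cases u <;> simp [rot, omegaQ] <;> ring

theorem rot_mul_omega_pow (u : Fin 3) (t : ℝ) (m : ℕ) :
    rot u t * omegaQ ^ m = omegaQ ^ m * rot (u + 2 * Fin.ofNat 3 m) t := by
  induction m with
  | zero => simp [Fin.ofNat]
  | succ m ih =>
    have e : Fin.ofNat 3 (m + 1) = Fin.ofNat 3 m + 1 := by
      apply Fin.ext; simp [Fin.ofNat, Fin.val_add, Nat.add_mod]
    have key : ∀ u a : Fin 3, u + 2 * a + 2 = u + 2 * (a + 1) := by decide
    rw [pow_succ, ← mul_assoc, ih, mul_assoc, rot_mul_omega, ← mul_assoc, e, key]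

/-- A rotation of the list. -/
def listH (n : Fin 4) (m : Fin 3) : S3 := unitQ n * omegaQ ^ (m : ℕ)

theorem rot_mul_listH (n : Fin 4) (m v : Fin 3) (t : ℝ) :
    rot v t * listH n m = listH n m * rot (v + 2 * m) (unitSgn n v * t) := by
  rw [listH, ← mul_assoc, rot_mul_unitQ, mul_assoc, rot_mul_omega_pow, ← mul_assoc,
    show Fin.ofNat 3 (m : ℕ) = m from Fin.ext (Nat.mod_eq_of_lt m.2)]

/-- The inversion of a factor for the left side, nothing for the right side. -/
def sideMap (f s : Fin 2) : Pullback := if s = 0 then .inv f else .one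

theorem sideMap_moves (f s : Fin 2) : (sideMap f s).Moves 0 0 := by
  unfold sideMap; split_ifs
  exacts [Pullback.inv_moves f, Pullback.one_moves 0]

/-- The indices of the isometries of `J3`. -/
abbrev IsoIdx : Type := (Fin 2 × Fin 2) × (Fin 4 × Fin 3)

/-- The isometries of `J3`. -/
def isoT (e : IsoIdx) : Pullback :=
  ((sideMap 0 e.1.1).trans (sideMap 1 e.1.2)).trans (.rightT (listH e.2.1 e.2.2, 1))

theorem isoT_moves (e : IsoIdx) : (isoT e).Moves 0 0 :=
  ((sideMap_moves _ _).trans (sideMap_moves _ _)).trans (Pullback.rightT_moves _)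

/-- The value on one factor. -/
def sideVal (s : Fin 2) (x : S3) : S3 := if s = 0 then x⁻¹ else x

theorem isoT_g (e : IsoIdx) (x : N2) : (isoT e).g x =
    (sideVal e.1.1 x.1 * listH e.2.1 e.2.2, sideVal e.1.2 x.2) := by
  obtain ⟨⟨s, s'⟩, n, m⟩ := e
  show (sideMap 1 s').g ((sideMap 0 s).g x) * (listH n m, 1) = _
  fin_cases s <;> fin_cases s' <;>
    simp [sideMap, sideVal, Pullback.inv, Pullback.one, Pullback.invFun, Prod.mul_def]

/-- The inverse maps. -/
def isoTInv (e : IsoIdx) : Pullback :=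
  (Pullback.rightT ((listH e.2.1 e.2.2)⁻¹, 1)).trans ((sideMap 1 e.1.2).trans (sideMap 0 e.1.1))

theorem isoTInv_moves (e : IsoIdx) : (isoTInv e).Moves 0 0 :=
  (Pullback.rightT_moves _).trans ((sideMap_moves _ _).trans (sideMap_moves _ _))

theorem sideVal_sideVal (s : Fin 2) (x : S3) : sideVal s (sideVal s x) = x := by
  fin_cases s <;> simp [sideVal]

theorem isoTInv_g (e : IsoIdx) (x : N2) : (isoTInv e).g x =
    (sideVal e.1.1 (x.1 * (listH e.2.1 e.2.2)⁻¹), sideVal e.1.2 x.2) := by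
  obtain ⟨⟨s, s'⟩, n, m⟩ := e
  show (sideMap 0 s).g ((sideMap 1 s').g (x * ((listH n m)⁻¹, 1))) = _
  fin_cases s <;> fin_cases s' <;>
    simp [sideMap, sideVal, Pullback.inv, Pullback.one, Pullback.invFun, Prod.mul_def]

theorem isoT_inverse (e : IsoIdx) :
    (∀ x, (isoTInv e).g ((isoT e).g x) = x) ∧ ∀ x, (isoT e).g ((isoTInv e).g x) = x := by
  constructor <;> intro x <;> simp [isoT_g, isoTInv_g, sideVal_sideVal]

/-- Flows matched by a map differentiate to matched fields. -/
theorem rder_tau_of_move (T : Pullback) (s s' : Slot) (u u' : Fin 3) (c : ℝ)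
    (h : ∀ t x, T.g (s.move u t x) = s'.move u' (c * t) (T.g x)) (p : Pol) :
    evN (s.rder u (T.τ p)) = evN ((c : ℂ) • T.τ (s'.rder u' p)) := by
  funext x
  have h1 : HasDerivAt (fun t => evN (T.τ p) (s.move u t x))
      (evN (s.rder u (T.τ p)) x) 0 := by
    have := Slot.hasDerivAt_ev (T.τ p) (s.hasDerivAt_move u x 0)
    rwa [s.move_zero] at this
  have h2 : HasDerivAt (fun t => evN p (s'.move u' (c * t) (T.g x)))
      (evN ((c : ℂ) • T.τ (s'.rder u' p)) x) 0 := by
    have h3 := (Slot.hasDerivAt_ev p (s'.hasDerivAt_move u' (T.g x) (c * 0))).scomp (0 : ℝ)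
      ((hasDerivAt_id' (0 : ℝ)).const_mul c)
    rw [mul_zero, s'.move_zero, mul_one] at h3
    rw [map_smul, Pi.smul_apply, T.evN_τ, smul_eq_mul, ← Complex.real_smul]
    exact h3
  simp only [T.evN_τ, h] at h1
  exact h1.unique h2

/-- The sign of a side. -/
def sideC (s : Fin 2) : ℝ := if s = 0 then -1 else 1

theorem sideC_sq (s : Fin 2) : sideC s * sideC s = 1 := by
  unfold sideC; split_ifs <;> norm_num

/-- The flows on a side. -/
theorem sideVal_move (s : Fin 2) (v : Fin 3) (t : ℝ) (x : S3) :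
    sideVal s (if s = 0 then rot v t * x else x * rot v t) =
      sideVal s x * rot v (sideC s * t) := by
  fin_cases s <;> simp [sideVal, sideC, rot_inv]

/-- The coefficient of the first factor. -/
def isoEps (s : Fin 2) (n : Fin 4) (m u : Fin 3) : ℂ :=
  ((sideC s * unitSgn n (u + m) : ℝ) : ℂ)

theorem isoT_twist (s₀ s₁ : Fin 2) (n : Fin 4) (m : Fin 3) :
    Twist (isoT ((s₀, s₁), (n, m))) s₀ s₁ (Equiv.addRight m) (isoEps s₀ n m) (sideC s₁ : ℂ) where
  ε_sq u := by
    rw [isoEps, ← Complex.ofReal_mul, mul_mul_mul_comm, sideC_sq, unitSgn_sq]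
    simp
  η_sq := by rw [← Complex.ofReal_mul, sideC_sq]; simp
  carry₀ u p := by
    have e := rder_tau_of_move (isoT ((s₀, s₁), (n, m))) (sideSlot 0 s₀) (.R 0) (u + m) u
      (sideC s₀ * unitSgn n (u + m)) (fun t x => ?_) p
    · rw [Equiv.coe_addRight, map_smul, e, map_smul, smul_smul, isoEps, ← Complex.ofReal_mul,
        mul_mul_mul_comm, sideC_sq, unitSgn_sq]
      simp
    · have hm : ((sideSlot 0 s₀).move (u + m) t x) =
          ((if s₀ = 0 then rot (u + m) t * x.1 else x.1 * rot (u + m) t), x.2) := by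
        fin_cases s₀ <;> simp [sideSlot, Slot.move]
      rw [hm, isoT_g, isoT_g]
      simp only [sideVal_move, Slot.move, ↓reduceIte, mul_assoc, rot_mul_listH,
        (show ∀ u m : Fin 3, u + m + 2 * m = u by decide) u m,
        show unitSgn n (u + m) * (sideC s₀ * t) = sideC s₀ * (unitSgn n (u + m) * t) by ring]
  carry₁ u p := by
    have e := rder_tau_of_move (isoT ((s₀, s₁), (n, m))) (sideSlot 1 s₁) (.R 1) u u (sideC s₁)
      (fun t x => ?_) p
    · rw [map_smul, e, map_smul, smul_smul, ← Complex.ofReal_mul, sideC_sq]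
      simp
    · have hm : ((sideSlot 1 s₁).move u t x) =
          (x.1, if s₁ = 0 then rot u t * x.2 else x.2 * rot u t) := by
        fin_cases s₁ <;> simp [sideSlot, Slot.move]
      rw [hm, isoT_g, isoT_g]
      simp only [sideVal_move, Slot.move, one_ne_zero, ↓reduceIte]

/-- The list separates every pair of fields. -/
theorem isoT_covers : Covers isoT := by
  intro s₀ s₁ v u
  refine ⟨4, fun n => ((s₀, s₁), (n, v - u)),
    fun n => isoEps s₀ n (v - u) u * (sideC s₁ : ℂ) / 4, Equiv.addRight (v - u),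
    fun n => isoEps s₀ n (v - u), fun _ => (sideC s₁ : ℂ),
    fun n => isoT_twist s₀ s₁ n (v - u), add_sub_cancel u v, fun w => ?_⟩
  have key : ∀ a b : Fin 3,
      ∑ n : Fin 4, unitSgn n a * unitSgn n b = if a = b then 4 else 0 := by
    intro a b
    fin_cases a <;> fin_cases b <;> simp [Fin.sum_univ_four, unitSgn] <;> norm_num
  have e : ∀ n : Fin 4, isoEps s₀ n (v - u) u * (sideC s₁ : ℂ) / 4 *
      (isoEps s₀ n (v - u) w * (sideC s₁ : ℂ)) =
      ((unitSgn n (u + (v - u)) * unitSgn n (w + (v - u)) / 4 : ℝ) : ℂ) := by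
    intro n
    have h1 : (sideC s₁ : ℂ) * sideC s₁ = 1 := by exact_mod_cast sideC_sq s₁
    have h0 : (sideC s₀ : ℂ) * sideC s₀ = 1 := by exact_mod_cast sideC_sq s₀
    simp only [isoEps, Complex.ofReal_mul, Complex.ofReal_div, Complex.ofReal_ofNat]
    linear_combination ((unitSgn n (u + (v - u)) : ℂ) * unitSgn n (w + (v - u)) / 4) *
      ((sideC s₀ : ℂ) * sideC s₀ * h1 + h0)
  rw [Finset.sum_congr rfl fun n _ => e n, ← Complex.ofReal_sum, ← Finset.sum_div, key]
  by_cases hw : w = u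
  · simp [hw]
  · rw [if_neg hw, if_neg fun h => hw (add_right_cancel h).symm]
    simp

end

end Vale.Agent.P225.Alg
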