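import Vale.Agent.P225.Alg.Model.Iso
import Vale.Agent.P225.Loop.ExcGood

/-!
P225 connector (helper20): at every junction the excursion generators seen in the isometry frames,
with one scalar per level, generate the whole algebra of finitely many non-axis levels.
-/

namespace Vale.Agent.P225.Alg

open Matrix Sphere
open scoped Classical

noncomputable section

/-- The matrix of a pull-back from a level of `J` to the same level of `J'`. -/
def levM (T : Pullback) (J J' : Fin 3) (L : ℕ × ℕ) : Matrix (Fib J' L) (Fib J L) ℝ :=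
  Matrix.of fun j i => T.M j.1 i.1

theorem levM_trans {T S : Pullback} {J J' : Fin 3} (J'' : Fin 3) (hS : S.Moves J J') (L : ℕ × ℕ) :
    levM (T.trans S) J J'' L = levM T J' J'' L * levM S J J' L := by
  ext j i
  show (T.trans S).M j.1 i.1 = _
  rw [Pullback.M_trans T S (fun k hk => hS.zero i.2 hk), Matrix.mul_apply, levSet, Finset.sum_map]
  rfl

theorem levM_of_id {T : Pullback} (h : ∀ x, T.g x = x) (J : Fin 3) (L : ℕ × ℕ) :
    levM T J J L = 1 := by
  ext j i
  show T.M j.1 i.1 = _
  rw [Pullback.M_congr (S := Pullback.one) h, Pullback.M_one, Matrix.one_apply]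
  simp only [Subtype.ext_iff]
  split_ifs <;> rfl

/-- The relabelling from `J3` to the junction `J`. -/
def cycT (J : Fin 3) : Pullback := ![.one, .cyc, .trans .cyc .cyc] J

/-- The relabelling from the junction `J` to `J3`. -/
def cycInv (J : Fin 3) : Pullback := ![.one, .trans .cyc .cyc, .cyc] J

theorem cycT_moves (J : Fin 3) : (cycT J).Moves 0 J := by
  fin_cases J
  exacts [Pullback.one_moves 0, Pullback.cyc_moves 0,
    (Pullback.cyc_moves 1).trans (Pullback.cyc_moves 0)]

theorem cycInv_moves (J : Fin 3) : (cycInv J).Moves J 0 := by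
  fin_cases J
  exacts [Pullback.one_moves 0, (Pullback.cyc_moves 2).trans (Pullback.cyc_moves 1),
    Pullback.cyc_moves 2]

theorem cycFun_three (x : N2) :
    Pullback.cycFun (Pullback.cycFun (Pullback.cycFun x)) = x := by
  obtain ⟨x, y⟩ := x
  simp only [Pullback.cycFun, Prod.mk.injEq]
  exact ⟨by group, by group⟩

theorem cyc_inverse (J : Fin 3) :
    (∀ x, (cycInv J).g ((cycT J).g x) = x) ∧ ∀ x, (cycT J).g ((cycInv J).g x) = x := by
  fin_cases J <;>
    exact ⟨fun x => by first | rfl | exact cycFun_three x,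
      fun x => by first | rfl | exact cycFun_three x⟩

theorem levM_cyc_mul (J : Fin 3) (L : ℕ × ℕ) :
    levM (cycInv J) J 0 L * levM (cycT J) 0 J L = 1 ∧
      levM (cycT J) 0 J L * levM (cycInv J) J 0 L = 1 := by
  rw [← levM_trans 0 (cycT_moves J) L, ← levM_trans J (cycInv_moves J) L]
  exact ⟨levM_of_id (T := (cycInv J).trans (cycT J)) (fun x => (cyc_inverse J).2 x) 0 L,
    levM_of_id (T := (cycT J).trans (cycInv J)) (fun x => (cyc_inverse J).1 x) J L⟩

theorem cycT_carries (J : Fin 3) :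
    (cycT J).Carries (Pullback.rSlot 2) (Pullback.rSlot (2 + J)) := by
  fin_cases J
  exacts [fun p => rfl, Pullback.cyc_carries 2,
    Pullback.Carries.trans (Pullback.cyc_carries 0) (Pullback.cyc_carries 2)]

/-- The Casimir value which an excursion at `J` sees. -/
def excCas (J : Fin 3) (V : Blk) : ℝ := Blk.cas (Pullback.rLabel V (2 + J))

theorem cycT_cas (J : Fin 3) (L : ℕ × ℕ) :
    Matrix.diagonal (fun i : Fib J L => excCas J i.1.blk) * levM (cycT J) 0 J L =
      levM (cycT J) 0 J L * casMat L.1 L.2 := by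
  ext j i
  rw [Matrix.diagonal_mul, casMat, Matrix.mul_diagonal, mul_comm]
  by_cases h : (cycT J).M j.1 i.1 = 0
  · simp [levM, h]
  · have e : Pullback.rLabel j.1.blk (2 + J) = Pullback.rLabel i.1.blk 2 :=
      by_contra fun e => h ((cycT J).M_eq_zero (cycT_carries J) e)
    show _ * excCas J j.1.blk = _ * Blk.cas _
    rw [excCas, e]
    rfl

/-- The isometries of the junction `J`. -/
def isoJ (J : Fin 3) (e : IsoIdx) : Pullback := (cycT J).trans ((isoT e).trans (cycInv J))

theorem isoJ_moves (J : Fin 3) (e : IsoIdx) : (isoJ J e).Moves J J :=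
  (cycT_moves J).trans ((isoT_moves e).trans (cycInv_moves J))

theorem levM_isoJ (J : Fin 3) (e : IsoIdx) (L : ℕ × ℕ) :
    levM (isoJ J e) J J L =
      levM (cycT J) 0 J L * (isoMat (isoT e) L.1 L.2 * levM (cycInv J) J 0 L) := by
  rw [isoJ, levM_trans J ((isoT_moves e).trans (cycInv_moves J)) L,
    levM_trans 0 (cycInv_moves J) L]
  rfl

/-- The weights of a level. -/
def wDiag (J : Fin 3) (p : ℤ) (L : ℕ × ℕ) : Matrix (Fib J L) (Fib J L) ℝ :=
  Matrix.diagonal fun i => i.1.blk.mu ^ p

theorem wDiag_mul (J : Fin 3) (p : ℤ) (L : ℕ × ℕ) : wDiag J p L * wDiag J (-p) L = 1 := by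
  rw [wDiag, wDiag, Matrix.diagonal_mul_diagonal, ← Matrix.diagonal_one]
  congr 1
  funext i
  rw [_root_.zpow_neg, mul_inv_cancel₀ (zpow_ne_zero _ (ne_of_gt (zero_lt_one.trans_le (Blk.one_le_mu _))))]

theorem levMat_wOp {T : Pullback} {J : Fin 3} (h : T.Moves J J) (p : ℤ) {Lv : Finset (ℕ × ℕ)}
    (L : Lv) : Loop.levMat J Lv (Pullback.wOp h p) L =
      wDiag J p L.1 * levM T J J L.1 * wDiag J (-p) L.1 := by
  ext i j
  rw [Loop.levMat_apply, Pullback.wOp_apply, i.2,
    Finset.sum_eq_single_of_mem j.1 (mem_levSet.2 j.2), lp.single_apply_self, wDiag, wDiag,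
    Matrix.mul_diagonal, Matrix.diagonal_mul, levM, Matrix.of_apply, div_zpow, _root_.zpow_neg]
  · ring
  · intro k _ hk
    rw [lp.single_apply_ne _ _ _ hk, mul_zero]

/-- The inverse of an isometry of the junction `J`. -/
def isoJInv (J : Fin 3) (e : IsoIdx) : Pullback := (cycT J).trans ((isoTInv e).trans (cycInv J))

theorem isoJInv_moves (J : Fin 3) (e : IsoIdx) : (isoJInv J e).Moves J J :=
  (cycT_moves J).trans ((isoTInv_moves e).trans (cycInv_moves J))

theorem isoJ_inverse (J : Fin 3) (e : IsoIdx) :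
    (∀ x, (isoJInv J e).g ((isoJ J e).g x) = x) ∧ ∀ x, (isoJ J e).g ((isoJInv J e).g x) = x := by
  constructor <;> intro x
  · show (cycInv J).g ((isoTInv e).g ((cycT J).g ((cycInv J).g ((isoT e).g ((cycT J).g x))))) = x
    rw [(cyc_inverse J).2, (isoT_inverse e).1, (cyc_inverse J).1]
  · show (cycInv J).g ((isoT e).g ((cycT J).g ((cycInv J).g ((isoTInv e).g ((cycT J).g x))))) = x
    rw [(cyc_inverse J).2, (isoT_inverse e).2, (cyc_inverse J).1]

/-- The frame of an isometry with weights `mu ^ p` on values and `mu ^ q` on deviations. -/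
def isoFrame (J : Fin 3) (Lv : Finset (ℕ × ℕ)) (p q : ℤ) (e : IsoIdx) :
    Loop.Frame J Lv ((2 : ℝ) ^ max p.natAbs q.natAbs) where
  Uu := Pullback.wOp (isoJ_moves J e) p
  Vu := Pullback.wOp (isoJInv_moves J e) p
  Uw := Pullback.wOp (isoJ_moves J e) q
  Vw := Pullback.wOp (isoJInv_moves J e) q
  loc := ⟨Pullback.levelLocal_wOp _ _, Pullback.levelLocal_wOp _ _, Pullback.levelLocal_wOp _ _,
    Pullback.levelLocal_wOp _ _⟩
  bd :=
    ⟨(Pullback.norm_wOp_le _ _).trans (pow_le_pow_right₀ one_le_two (le_max_left _ _)),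
      (Pullback.norm_wOp_le _ _).trans (pow_le_pow_right₀ one_le_two (le_max_left _ _)),
      (Pullback.norm_wOp_le _ _).trans (pow_le_pow_right₀ one_le_two (le_max_right _ _)),
      (Pullback.norm_wOp_le _ _).trans (pow_le_pow_right₀ one_le_two (le_max_right _ _))⟩
  inv := by
    constructor
    · rw [← Loop.levMat_mul (Pullback.levelLocal_wOp _ _),
        Pullback.wOp_inverse (isoJ_moves J e) (isoJInv_moves J e) p (isoJ_inverse J e).1,
        Loop.levMat_one]
    · rw [← Loop.levMat_mul (Pullback.levelLocal_wOp _ _),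
        Pullback.wOp_inverse (isoJInv_moves J e) (isoJ_moves J e) p (isoJ_inverse J e).2,
        Loop.levMat_one]

theorem bumpMass_pos : 0 < Loop.bumpMass := by
  have hpos : ∀ x, 0 ≤ bump x := fun x =>
    mul_nonneg (Real.smoothTransition.nonneg _) (Real.smoothTransition.nonneg _)
  refine intervalIntegral.integral_pos zero_lt_one (Vale.Agent.P225.Loop.continuous_bump).continuousOn
    (fun x _ => hpos x) ⟨1 / 2, by norm_num, ?_⟩
  exact mul_pos (Real.smoothTransition.pos_of_pos (by norm_num))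
    (Real.smoothTransition.pos_of_pos (by norm_num))

open Loop in
/-- The generation hypothesis of the ideal control, on the model: any family of frames whose maps on
values are the weighted isometries `isoJ`. -/
theorem excGen_generates {J : Fin 3} {Lv : Finset (ℕ × ℕ)} (hLv : ∀ L ∈ Lv, 1 ≤ L.1 ∧ 1 ≤ L.2)
    {s₀ : ℝ} (hs : 0 < s₀) {M : ℝ} (p : ℤ) (F : IsoIdx → Frame J Lv M)
    (hF : ∀ e, (F e).Uu = Pullback.wOp (isoJ_moves J e) p)
    (P : Submodule ℝ (LevAlg J Lv))
    (hW : Set.range (fun e => excGen (F e) s₀) ∪ Set.range (fun L : Lv => Pi.single L 1) ⊆ P)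
    (hP : ∀ Y ∈ Set.range (fun e => excGen (F e) s₀) ∪ Set.range (fun L : Lv => Pi.single L 1),
      ∀ Z ∈ P, Y * Z - Z * Y ∈ P) : P = ⊤ := by
  let al : Lv → ℕ := fun L => L.1.1
  let bl : Lv → ℕ := fun L => L.1.2
  let pl : Lv → ℝ := fun L => Blk.cas L.1.1 + Blk.cas L.1.2
  let κ : Lv → ℝ := fun L => 1 / Real.sqrt (25 + 4 * (s₀ * pl L))
  have hc : ∀ x : ℕ, 0 ≤ Blk.cas x := fun x => by unfold Blk.cas; positivity
  have hroot : ∀ L : Lv, 0 < 25 + 4 * (s₀ * pl L) := fun L => by
    have := mul_nonneg hs.le (add_nonneg (hc L.1.1) (hc L.1.2))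
    simp only [pl]; linarith
  have hκ : ∀ L, κ L ≠ 0 := fun L => one_div_ne_zero (Real.sqrt_pos.2 (hroot L)).ne'
  have hrate : ∀ (L : Lv) (i : Fib J L.1),
      -excRate J s₀ i.1.blk = -(s₀ * bumpMass) * κ L * (excCas J i.1.blk - pl L) := by
    intro L i
    have h1 : i.1.blk.level J = L.1 := i.2
    have e1 : (-1 : Fin 3) = 2 := rfl
    have e2 : (-2 : Fin 3) = 1 := rfl
    have hp : excP J i.1.blk = pl L := by
      simp only [pl, ← h1]
      fin_cases J <;> simp [excP, Blk.lam, rotW, rawExc, Blk.level, e1, e2, add_comm]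
    have hS : excS J i.1.blk = excCas J i.1.blk := by
      fin_cases J <;>
        simp [excS, excCas, Blk.lam, rotW, Pullback.rLabel, e1, e2]
    rw [excRate, excGain, excKap, hp, hS]
    simp only [κ]
    ring
  let W : ∀ L : Lv, Matrix (Fib J L.1) (Fib 0 (al L, bl L)) ℝ := fun L =>
    wDiag J p L.1 * levM (cycT J) 0 J L.1
  let W' : ∀ L : Lv, Matrix (Fib 0 (al L, bl L)) (Fib J L.1) ℝ := fun L =>
    levM (cycInv J) J 0 L.1 * wDiag J (-p) L.1
  have hW'W : ∀ L, W' L * W L = 1 := fun L => by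
    have h := wDiag_mul J (-p) L.1
    rw [neg_neg] at h
    simp only [W, W', Matrix.mul_assoc]
    rw [← Matrix.mul_assoc (wDiag J (-p) L.1), h, Matrix.one_mul, (levM_cyc_mul J L.1).1]
  have hWW' : ∀ L, W L * W' L = 1 := fun L => by
    simp only [W, W', Matrix.mul_assoc]
    rw [← Matrix.mul_assoc (levM (cycT J) 0 J L.1), (levM_cyc_mul J L.1).2, Matrix.one_mul,
      wDiag_mul]
  let φ : LevAlg J Lv →ₗ[ℝ] Fam ℝ fun L : Lv => Fib 0 (al L, bl L) :=
    { toFun := fun A L => W' L * A L * W L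
      map_add' := fun A B => funext fun L => by simp [Matrix.mul_add, Matrix.add_mul]
      map_smul' := fun r A => funext fun L => by simp }
  let ψ : Fam ℝ (fun L : Lv => Fib 0 (al L, bl L)) → LevAlg J Lv := fun B L => W L * B L * W' L
  have hφψ : ∀ B, φ (ψ B) = B := fun B => funext fun L => by
    show W' L * (W L * B L * W' L) * W L = B L
    simp only [Matrix.mul_assoc, hW'W, Matrix.mul_one]
    rw [← Matrix.mul_assoc, hW'W, Matrix.one_mul]
  have hψφ : ∀ A, ψ (φ A) = A := fun A => funext fun L => by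
    show W L * (W' L * A L * W L) * W' L = A L
    simp only [Matrix.mul_assoc, hWW', Matrix.mul_one]
    rw [← Matrix.mul_assoc, hWW', Matrix.one_mul]
  have hmul : ∀ A B, φ (A * B) = φ A * φ B := fun A B => funext fun L => by
    show W' L * (A L * B L) * W L = W' L * A L * W L * (W' L * B L * W L)
    simp only [Matrix.mul_assoc]
    rw [← Matrix.mul_assoc (W L) (W' L), hWW', Matrix.one_mul]
  have hone : ∀ L : Lv, φ (Pi.single L 1) = Pi.single L 1 := fun L => funext fun L' => by
    show W' L' * (Pi.single L 1 : LevAlg J Lv) L' * W L' = _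
    rcases eq_or_ne L' L with rfl | hne
    · simp [hW'W]
    · simp [Pi.single_eq_of_ne hne]
  have hgen : ∀ e, φ (excGen (F e) s₀) = (-(s₀ * bumpMass)) •
      (genFam al bl κ isoT e -
        ∑ L, (κ L * pl L) • (Pi.single L 1 : Fam ℝ fun L : Lv => Fib 0 (al L, bl L))) := by
    intro e
    funext L
    rw [Pi.smul_apply, Pi.sub_apply, Finset.sum_apply, Finset.sum_eq_single L]
    · have hU : levMat J Lv (F e).Uu L = W L * isoMat (isoT e) (al L) (bl L) * W' L := by
        rw [hF, levMat_wOp, levM_isoJ]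
        simp only [W, W', Matrix.mul_assoc]
        rfl
      have horth := (isoT_twist e.1.1 e.1.2 e.2.1 e.2.2).isoMat_orth (a := al L) (b := bl L)
      have hV : levMat J Lv (F e).Vu L = W L * (isoMat (isoT e) (al L) (bl L))ᵀ * W' L := by
        refine (left_inv_eq_right_inv (a := levMat J Lv (F e).Uu L)
          (congrFun (F e).inv.2 L) ?_)
        rw [hU]
        simp only [Matrix.mul_assoc]
        rw [← Matrix.mul_assoc (W' L) (W L), hW'W, Matrix.one_mul,
          ← Matrix.mul_assoc (isoMat (isoT e) (al L) (bl L)), mul_eq_one_comm.1 horth,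
          Matrix.one_mul, hWW']
      have hD : (Matrix.diagonal fun i : Fib J L.1 => -excRate J s₀ i.1.blk) * W L =
          W L * ((-(s₀ * bumpMass) * κ L) • (casMat (al L) (bl L) - pl L • 1)) := by
        have e1 : (Matrix.diagonal fun i : Fib J L.1 => -excRate J s₀ i.1.blk) =
            (-(s₀ * bumpMass) * κ L) •
              (Matrix.diagonal (fun i : Fib J L.1 => excCas J i.1.blk) - pl L • 1) := by
          rw [Matrix.smul_one_eq_diagonal, Matrix.diagonal_sub, ← Matrix.diagonal_smul]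
          congr 1
          funext i
          rw [hrate L i]
          simp
        have hcomm : Matrix.diagonal (fun i : Fib J L.1 => excCas J i.1.blk) * wDiag J p L.1 =
            wDiag J p L.1 * Matrix.diagonal (fun i : Fib J L.1 => excCas J i.1.blk) := by
          simp only [wDiag, Matrix.diagonal_mul_diagonal, mul_comm]
        rw [e1, Matrix.smul_mul, Matrix.mul_smul, Matrix.sub_mul, Matrix.mul_sub]
        congr 2
        · simp only [W]
          rw [← Matrix.mul_assoc, hcomm, Matrix.mul_assoc, cycT_cas, ← Matrix.mul_assoc]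
        · rw [Matrix.smul_mul, Matrix.one_mul, Matrix.mul_smul, Matrix.mul_one]
      show W' L * excGen (F e) s₀ L * W L = _
      rw [show excGen (F e) s₀ L = levMat J Lv (F e).Uu L *
        (Matrix.diagonal fun i : Fib J L.1 => -excRate J s₀ i.1.blk) * levMat J Lv (F e).Vu L from
          rfl,
        hU, hV]
      simp only [Matrix.mul_assoc, hW'W, Matrix.mul_one]
      rw [← Matrix.mul_assoc (Matrix.diagonal fun i : Fib J L.1 => -excRate J s₀ i.1.blk) (W L),
        hD]
      simp only [Matrix.mul_assoc]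
      rw [← Matrix.mul_assoc (W' L) (W L), hW'W, Matrix.one_mul,
        ← Matrix.mul_assoc (W' L) (W L), hW'W, Matrix.one_mul]
      simp only [genFam, genMat, Pi.smul_apply, Pi.single_eq_same, Matrix.smul_mul, Matrix.mul_smul,
        Matrix.sub_mul, Matrix.mul_sub, Matrix.mul_one, Matrix.one_mul,
        mul_eq_one_comm.1 horth, Matrix.mul_assoc]
      module
    · intro L' _ hne; simp [Pi.single_eq_of_ne hne.symm]
    · simp
  let P' := P.map φ
  have hWP : ∀ L : Lv, (Pi.single L 1 : Fam ℝ fun L : Lv => Fib 0 (al L, bl L)) ∈ P' := fun L =>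
    hone L ▸ Submodule.mem_map_of_mem (hW (Or.inr ⟨L, rfl⟩))
  have hsne : -(s₀ * bumpMass) ≠ 0 := neg_ne_zero.2 (mul_pos hs bumpMass_pos).ne'
  have hsplit : ∀ e, genFam al bl κ isoT e = (-(s₀ * bumpMass))⁻¹ • φ (excGen (F e) s₀) +
      ∑ L, (κ L * pl L) • (Pi.single L 1 : Fam ℝ fun L : Lv => Fib 0 (al L, bl L)) := fun e => by
    rw [hgen, smul_smul, inv_mul_cancel₀ hsne, one_smul, sub_add_cancel]
  have hbr : ∀ A ∈ Set.range (fun e => excGen (F e) s₀) ∪
      Set.range (fun L : Lv => Pi.single L 1), ∀ B ∈ P', φ A * B - B * φ A ∈ P' := by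
    rintro A hA B ⟨Z, hZ, rfl⟩
    exact ⟨A * Z - Z * A, hP A hA Z hZ, by rw [map_sub, hmul, hmul]⟩
  have htop : P' = ⊤ := by
    refine level_generates (fun L => (hLv _ L.2).1) (fun L => (hLv _ L.2).2) hκ
      (sep_of_rate (fun L L' h => Subtype.ext h) hs.le κ fun L => ?_) isoT_covers P' ?_ ?_
    · simp only [κ, div_pow, one_pow]
      rw [Real.sq_sqrt (hroot L).le]
      simp only [pl, Blk.cas]
      ring
    · rintro _ (⟨e, rfl⟩ | ⟨L, rfl⟩)
      · rw [hsplit]
        exact P'.add_mem (P'.smul_mem _ (Submodule.mem_map_of_mem (hW (Or.inl ⟨e, rfl⟩))))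
          (P'.sum_mem fun L _ => P'.smul_mem _ (hWP L))
      · exact hWP L
    · rintro _ (⟨e, rfl⟩ | ⟨L, rfl⟩) B hB
      · rw [hsplit, add_mul, mul_add, add_sub_add_comm, smul_mul_assoc, mul_smul_comm, ← smul_sub,
          Finset.sum_mul, Finset.mul_sum, ← Finset.sum_sub_distrib]
        refine P'.add_mem (P'.smul_mem _ (hbr _ (Or.inl ⟨e, rfl⟩) B hB))
          (P'.sum_mem fun L _ => ?_)
        rw [smul_mul_assoc, mul_smul_comm, ← smul_sub, ← hone L]
        exact P'.smul_mem _ (hbr _ (Or.inr ⟨L, rfl⟩) B hB)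
      · show (Pi.single L 1 : Fam ℝ fun L : Lv => Fib 0 (al L, bl L)) * B - B * Pi.single L 1 ∈ P'
        rw [← hone L]
        exact hbr _ (Or.inr ⟨L, rfl⟩) B hB
  rw [eq_top_iff]
  intro A _
  obtain ⟨Z, hZ, e⟩ : φ A ∈ P' := htop ▸ Submodule.mem_top
  have := congrArg ψ e
  rw [hψφ, hψφ] at this
  exact this ▸ hZ

end

end Vale.Agent.P225.Alg
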