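import Vale.Agent.P225.Alg.SpinInst
import Vale.Agent.P225.Sphere.Pullback
import Vale.Agent.P225.Seg.Levels
import Vale.Agent.P225.Alg.CountBlk

/-!
P225 connector (helper20): spin coordinates of one level of the junction `J3`.  The twelve slot
operators act on `spinVec a b` by the spin matrices, and the basis `Q` of the level is a change of
coordinates away from it.
-/

namespace Vale.Agent.P225.Alg

open Matrix Sphere
open scoped Kronecker Classical

noncomputable section

/-- The side `0` is left, `1` is right. -/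
def sideSlot (f i : Fin 2) : Slot := if i = 0 then .L f else .R f

/-- The spin matrices in the order of `Slot.der`. -/
def derMat (a : ℕ) : Fin 3 → Matrix (Fin (a + 1)) (Fin (a + 1)) ℂ :=
  ![spinF a, spinE a, diagonal (spinTop a)]

/-- A spin matrix acting in one slot of `V_a ⊗ V_a`. -/
def sideMat (a : ℕ) (i : Fin 2) (k : Fin 3) :
    Matrix (Fin (a + 1) × Fin (a + 1)) (Fin (a + 1) × Fin (a + 1)) ℂ :=
  if i = 0 then derMat a k ⊗ₖ 1 else 1 ⊗ₖ derMat a k

theorem chain_der {a : ℕ} (v : ℕ → Pol) (D : Fin 3 → Pol → Pol)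
    (h0 : ∀ n ≤ a, D 0 (v n) = (n : ℂ) • v (n - 1))
    (h1 : ∀ n ≤ a, D 1 (v n) = ((a : ℂ) - n) • v (n + 1))
    (h2 : ∀ n ≤ a, D 2 (v n) = ((a : ℂ) - 2 * n) • v n) (k : Fin 3) (p : Fin (a + 1)) :
    D k (v p) = ∑ q, derMat a k q p • v q := by
  fin_cases k
  · show D 0 (v p) = ∑ q, spinF a q p • v q
    rw [h0 p (by omega)]
    rcases Nat.eq_zero_or_pos (p : ℕ) with hp | hp
    · rw [hp, Nat.cast_zero, zero_smul, Finset.sum_eq_zero]
      intro q _
      rw [spinF_eq_zero a q p (by omega), zero_smul]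
    · rw [Finset.sum_eq_single (⟨p - 1, by omega⟩ : Fin (a + 1))]
      · simp [spinF, show (p : ℕ) - 1 + 1 = p by omega]
      · intro q _ hq
        rw [spinF_eq_zero a q p (fun e => hq (Fin.ext (by simp only; omega))), zero_smul]
      · simp
  · show D 1 (v p) = ∑ q, spinE a q p • v q
    rw [h1 p (by omega)]
    rcases Nat.lt_or_ge (p : ℕ) a with hp | hp
    · rw [Finset.sum_eq_single (⟨p + 1, by omega⟩ : Fin (a + 1))]
      · simp [spinE]
      · intro q _ hq
        rw [spinE_eq_zero a q p (fun e => hq (Fin.ext e)), zero_smul]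
      · simp
    · rw [show (p : ℕ) = a by omega, sub_self, zero_smul, Finset.sum_eq_zero]
      intro q _
      rw [spinE_eq_zero a q p (by omega), zero_smul]
  · show D 2 (v p) = ∑ q, diagonal (spinTop a) q p • v q
    rw [h2 p (by omega), Finset.sum_eq_single p]
    · simp [spinTop]
    · intro q _ hq; simp [hq]
    · simp

/-- Rescaled chain vectors of one factor. -/
def gen' (f : Fin 2) (a i p : ℕ) : Pol :=
  (((a - i).factorial : ℂ) / a.factorial) • gen f a i p

theorem gen_E_R (f : Fin 2) (a p : ℕ) :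
    (Slot.R f).der 0 (mono f a p) = (p : ℂ) • mono f a (p - 1) ∨ a < p := by
  rcases Nat.lt_or_ge a p with h | h
  · exact Or.inr h
  left
  have h0 : (Slot.R f).der 0 (MvPolynomial.X (f, 0, 0)) = 0 := by
    simp [Slot.der_X, Slot.img, Slot.act, Slot.get, Slot.put, Slot.coef, Slot.tgt]
  have h1 : (Slot.R f).der 0 (MvPolynomial.X (f, 0, 1)) = MvPolynomial.X (f, 0, 0) := by
    simp [Slot.der_X, Slot.img, Slot.act, Slot.get, Slot.put, Slot.coef, Slot.tgt]
  rcases p with _ | n
  · simp [mono, Derivation.leibniz_pow, h0]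
  · rw [mono, mono, Derivation.leibniz, Derivation.leibniz_pow, Derivation.leibniz_pow, h0, h1,
      show a - (n + 1 - 1) = a - (n + 1) + 1 by omega, MvPolynomial.smul_eq_C_mul, map_natCast]
    simp [pow_succ]
    ring

theorem mono_H_R (f : Fin 2) {a p : ℕ} (h : p ≤ a) :
    (Slot.R f).der 2 (mono f a p) = ((a : ℂ) - 2 * p) • mono f a p := by
  have h0 : (Slot.R f).der 2 (MvPolynomial.X (f, 0, 0)) = (1 : ℂ) • MvPolynomial.X (f, 0, 0) := by
    simp [Slot.der_X, Slot.img, Slot.act, Slot.get, Slot.put, Slot.coef, Slot.tgt]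
  have h1 : (Slot.R f).der 2 (MvPolynomial.X (f, 0, 1)) = (-1 : ℂ) • MvPolynomial.X (f, 0, 1) := by
    simp [Slot.der_X, Slot.img, Slot.act, Slot.get, Slot.put, Slot.coef, Slot.tgt]
  rw [mono, eig_mul (eig_pow h0 _) (eig_pow h1 _)]
  congr 1
  push_cast [h]
  ring

theorem der_R_gen (f : Fin 2) (a i : ℕ) (k : Fin 3) (p : ℕ) :
    (Slot.R f).der k (gen f a i p) =
      ((Slot.L f).triple.F ^ i) ((Slot.R f).der k (mono f a p)) := by
  rw [gen]
  generalize (i : ℕ) = n
  induction n with
  | zero => rfl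
  | succ n ih =>
    simp only [pow_succ', Module.End.mul_apply]
    rw [← ih]
    exact Slot.der_comm (s := Slot.R f) (t := Slot.L f) rfl k 1 _

theorem der_gen' (f i : Fin 2) (k : Fin 3) {a : ℕ} (q : Fin (a + 1) × Fin (a + 1)) :
    (sideSlot f i).der k (gen' f a q.1 q.2) =
      ∑ r, sideMat a i k r q • gen' f a r.1 r.2 := by
  obtain ⟨n, p⟩ := q
  fin_cases i
  · have key := chain_der (a := a) (fun n => gen' f a n p)
      (fun k => (Slot.L f).der k) (fun n hn => ?_) (fun n hn => ?_) (fun n hn => ?_) k n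
    · simp only [sideSlot, sideMat, Fin.zero_eta, ↓reduceIte]
      rw [key, Fintype.sum_prod_type]
      refine Finset.sum_congr rfl fun r _ => ?_
      rw [Finset.sum_eq_single p] <;> simp +contextual
    · show (Slot.L f).der 0 (gen' f a n p) = _
      rcases n with _ | m
      · simp only [gen', Derivation.map_smul, Nat.cast_zero, zero_smul]
        rw [gen_zero, show (Slot.L f).der 0 (mono f a p) = 0 from mono_EL f a p, smul_zero]
      · have e : (Slot.L f).der 0 (gen f a (m + 1) p) = ((m + 1 : ℂ) * ((a : ℂ) - m)) • gen f a m p :=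
          Triple.E_iterate (mono_HL f p.is_le) (mono_EL f a p) m
        rw [gen', Derivation.map_smul, e, gen', smul_smul, smul_smul]
        congr 1
        rw [Nat.add_sub_cancel, show a - m = a - (m + 1) + 1 by omega, Nat.factorial_succ,
          show a - (m + 1) + 1 = a - m by omega]
        have : (a.factorial : ℂ) ≠ 0 := by exact_mod_cast a.factorial_ne_zero
        push_cast [show m ≤ a by omega]
        field_simp
    · show (Slot.L f).der 1 (gen' f a n p) = _
      rw [gen', Derivation.map_smul, F_gen, gen', smul_smul]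
      rcases Nat.lt_or_ge n a with h | h
      · congr 1
        rw [show a - n = a - (n + 1) + 1 by omega, Nat.factorial_succ,
          show a - (n + 1) + 1 = a - n by omega]
        push_cast [h.le]
        ring
      · rw [gen_eq_zero f p.is_le (by omega), smul_zero, smul_zero]
    · show (Slot.L f).der 2 (gen' f a n p) = _
      rw [gen', Derivation.map_smul,
        show (Slot.L f).der 2 (gen f a n p) = ((a : ℂ) - 2 * n) • gen f a n p from
          Triple.H_iterate (mono_HL f p.is_le) n, smul_comm]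
  · have key := chain_der (a := a) (fun p => gen' f a n p)
      (fun k => (Slot.R f).der k) (fun p hp => ?_) (fun p hp => ?_) (fun p hp => ?_) k p
    · simp only [sideSlot, sideMat, Fin.mk_one, one_ne_zero, ↓reduceIte]
      rw [key, Fintype.sum_prod_type]
      symm
      rw [Finset.sum_eq_single n]
      · simp
      · intro r _ hr; simp [hr]
      · simp
    · show (Slot.R f).der 0 (gen' f a n p) = _
      rw [gen', Derivation.map_smul, der_R_gen, (gen_E_R f a p).resolve_right (by omega), map_smul,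
        gen', smul_comm]
      rfl
    · show (Slot.R f).der 1 (gen' f a n p) = _
      rw [gen', Derivation.map_smul, der_R_gen, F_mono, map_smul, gen', smul_comm, Nat.cast_sub hp]
      rfl
    · show (Slot.R f).der 2 (gen' f a n p) = _
      rw [gen', Derivation.map_smul, der_R_gen, mono_H_R f hp, map_smul, smul_comm]
      rfl

/-- The spin index of one level. -/
abbrev SIdx (a b : ℕ) : Type := (Fin (a + 1) × Fin (a + 1)) × (Fin (b + 1) × Fin (b + 1))

/-- The spin vectors of the level `(a, b)`. -/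
def spinVec (a b : ℕ) (q : SIdx a b) : Pol := gen' 0 a q.1.1 q.1.2 * gen' 1 b q.2.1 q.2.2

theorem gen'_other {f g : Fin 2} (h : g ≠ f) (i : Fin 2) (k : Fin 3) (a n p : ℕ) :
    (sideSlot g i).der k (gen' f a n p) = 0 := by
  rw [gen', Derivation.map_smul, gen_other h (by fin_cases i <;> simp [sideSlot]) k, smul_zero]

theorem sideSlot_indep (i i' : Fin 2) : (sideSlot 0 i).Indep (sideSlot 1 i') := by
  fin_cases i <;> fin_cases i' <;> rfl

/-- Composite of one operator of each factor. -/
theorem der_der_spinVec (a b : ℕ) (i i' : Fin 2) (k k' : Fin 3) (q : SIdx a b) :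
    (sideSlot 0 i).der k ((sideSlot 1 i').der k' (spinVec a b q)) =
      ∑ r, (sideMat a i k ⊗ₖ sideMat b i' k') r q • spinVec a b r := by
  have h1 : ∀ x y : ℕ, (sideSlot 0 i).der k (gen' 1 b x y) = 0 :=
    fun x y => gen'_other (by decide) i k b x y
  have h2 : ∀ x y : ℕ, (sideSlot 1 i').der k' (gen' 0 a x y) = 0 :=
    fun x y => gen'_other (by decide) i' k' a x y
  rw [spinVec, Derivation.leibniz, h2, smul_zero, add_zero, smul_eq_mul, der_gen', Finset.mul_sum,
    map_sum, Fintype.sum_prod_type (f := fun r : SIdx a b =>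
      (sideMat a i k ⊗ₖ sideMat b i' k') r q • spinVec a b r), Finset.sum_comm]
  refine Finset.sum_congr rfl fun r' _ => ?_
  rw [mul_smul_comm, Derivation.map_smul, Derivation.leibniz, h1, smul_zero, zero_add, smul_eq_mul,
    der_gen', Finset.mul_sum, Finset.smul_sum]
  refine Finset.sum_congr rfl fun r _ => ?_
  rw [Matrix.kronecker_apply, spinVec, mul_smul_comm, smul_smul,
    mul_comm (sideMat b i' k' r' q.2), mul_comm (gen' 1 b r'.1 r'.2)]

/-! ### The basis of a level -/

theorem card_fib (a b : ℕ) : Fintype.card (Fib 0 (a, b)) = Fintype.card (SIdx a b) := by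
  let T := Σ m : Fin (min a b + 1), Fin (mkBlk a b m).dim
  let e : T → Fib 0 (a, b) := fun t => ⟨⟨mkBlk a b t.1, t.2⟩, rfl⟩
  have he : Function.Bijective e := by
    constructor
    · rintro ⟨m, x⟩ ⟨m', x'⟩ h
      have h1 : mkBlk a b m = mkBlk a b m' := congrArg (fun i : Fib 0 (a, b) => i.1.1) h
      have hm : m = m' := by
        have : a + b - 2 * (m : ℕ) = a + b - 2 * (m' : ℕ) := congrArg Blk.lc h1
        have := m.2
        have := m'.2
        exact Fin.ext (by omega)
      subst hm
      obtain rfl : x = x' := eq_of_heq (Sigma.mk.inj (Subtype.mk.inj h)).2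
      rfl
    · rintro ⟨⟨V, x⟩, h⟩
      have ha : V.la = a := congrArg Prod.fst h
      have hb : V.lb = b := congrArg Prod.snd h
      obtain ⟨h0, h1, h2, h3⟩ := Blk.tri V
      let m : Fin (min a b + 1) := ⟨(a + b - V.lc) / 2, by omega⟩
      have hV : mkBlk a b m = V := by
        refine Subtype.ext (Prod.ext ha.symm (Prod.ext hb.symm ?_))
        show a + b - 2 * ((a + b - V.lc) / 2) = V.lc
        omega
      have key : ∀ (W : Blk) (_ : W = V), ∃ y : Fin W.dim, (⟨W, y⟩ : St) = ⟨V, x⟩ :=
        fun W hW => by subst hW; exact ⟨x, rfl⟩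
      obtain ⟨y, hy⟩ := key _ hV
      exact ⟨⟨m, y⟩, Subtype.ext hy⟩
  rw [← Fintype.card_of_bijective he]
  simp only [T, Fintype.card_sigma, Fintype.card_prod, Fintype.card_fin]
  rw [show ∑ m, (mkBlk a b m).dim = (a + 1) * (b + 1) * ∑ m : Fin (min a b + 1),
    (a + b - 2 * (m : ℕ) + 1) by rw [Finset.mul_sum]; rfl, level_count]
  ring

theorem gen_mem_span (f : Fin 2) (a : ℕ) : M1 f a ≤
    Submodule.span ℂ (Set.range fun q : Fin (a + 1) × Fin (a + 1) => gen' f a q.1 q.2) := by
  refine Submodule.span_le.2 ?_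
  rintro _ ⟨q, rfl⟩
  have hq : (((a - q.1).factorial : ℂ) / a.factorial) ≠ 0 :=
    div_ne_zero (by exact_mod_cast Nat.factorial_ne_zero _)
      (by exact_mod_cast Nat.factorial_ne_zero _)
  exact (Submodule.smul_mem_iff _ hq).1 (Submodule.subset_span ⟨q, rfl⟩)

theorem M2_le_span (a b : ℕ) : M2 a b ≤ Submodule.span ℂ (Set.range (spinVec a b)) := by
  refine (mul_le_mul' (gen_mem_span 0 a) (gen_mem_span 1 b)).trans ?_
  rw [Submodule.span_mul_span]
  refine Submodule.span_le.2 ?_
  rintro _ ⟨_, ⟨x, rfl⟩, _, ⟨y, rfl⟩, rfl⟩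
  exact Submodule.subset_span ⟨(x, y), rfl⟩

theorem evN_Q_mem (a b : ℕ) (i : Fib 0 (a, b)) :
    evN (Q i.1) ∈ Submodule.span ℂ (Set.range fun q => evN (spinVec a b q)) := by
  have hZ : ∀ j : St, j.1 = i.1.1 →
      evN (Z j) ∈ Submodule.span ℂ (Set.range fun q => evN (spinVec a b q)) := by
    intro j hj
    rw [show (fun q => evN (spinVec a b q)) = evN ∘ spinVec a b from rfl, Set.range_comp,
      ← Submodule.map_span]
    refine Submodule.mem_map_of_mem (M2_le_span a b ?_)
    have ha : i.1.1.la = a := congrArg Prod.fst i.2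
    have hb : i.1.1.lb = b := congrArg Prod.snd i.2
    have := bvec_mem j.1 (idx j.1 j.2)
    have ha' : j.1.la = a := by rw [hj, ha]
    have hb' : j.1.lb = b := by rw [hj, hb]
    rw [ha', hb'] at this
    exact Submodule.smul_mem _ _ this
  by_cases h1 : ordI i.1 < ordI (opp i.1)
  · rw [evN_Q_lt h1]
    exact add_mem (Submodule.smul_mem _ _ (hZ _ rfl)) (Submodule.smul_mem _ _ (hZ _ rfl))
  by_cases h2 : ordI (opp i.1) < ordI i.1
  · rw [evN_Q_gt h2]
    exact add_mem (Submodule.smul_mem _ _ (hZ _ rfl)) (Submodule.smul_mem _ _ (hZ _ rfl))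
  rw [evN_Q_eq h1 h2]
  exact Submodule.smul_mem _ _ (hZ _ rfl)

/-- Spin vectors in the basis `Q`. -/
def spinR (a b : ℕ) : Matrix (Fib 0 (a, b)) (SIdx a b) ℂ :=
  Matrix.of fun i q => cfQ (spinVec a b q) i.1

/-- The basis `Q` in spin vectors. -/
def spinQ (a b : ℕ) : Matrix (SIdx a b) (Fib 0 (a, b)) ℂ :=
  Matrix.of fun q i => (Submodule.mem_span_range_iff_exists_fun ℂ).1 (evN_Q_mem a b i) |>.choose q

theorem spinQ_spec (a b : ℕ) (i : Fib 0 (a, b)) :
    evN (Q i.1) = evN (∑ q, spinQ a b q i • spinVec a b q) := by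
  rw [map_sum]
  simp only [map_smul]
  exact ((Submodule.mem_span_range_iff_exists_fun ℂ).1 (evN_Q_mem a b i)).choose_spec.symm

theorem spinR_mul_spinQ (a b : ℕ) : spinR a b * spinQ a b = 1 := by
  ext i j
  have h : ip (Q i.1) (Q j.1) = ∑ q, spinQ a b q j * ip (Q i.1) (spinVec a b q) := by
    rw [ip_congr rfl (spinQ_spec a b j), ip_sum_right]
    simp only [ip_smul_right]
  rw [Matrix.mul_apply, Matrix.one_apply]
  rw [ip_Q] at h
  simp only [Subtype.ext_iff]
  have e : ∑ q, spinR a b i q * spinQ a b q j = ∑ q, spinQ a b q j * ip (Q i.1) (spinVec a b q) :=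
    Finset.sum_congr rfl fun q _ => mul_comm _ _
  rw [e, ← h]
  split_ifs <;> rfl

theorem spinQ_mul_spinR (a b : ℕ) : spinQ a b * spinR a b = 1 :=
  (Matrix.mul_eq_one_comm_of_equiv (Fintype.equivOfCardEq (card_fib a b))).1 (spinR_mul_spinQ a b)

/-- An operator with spin matrix `M` has the matrix `spinR * M * spinQ` in the basis `Q`. -/
theorem ip_Q_apply {a b : ℕ} (O : Pol →ₗ[ℂ] Pol) (hK : ∀ p ∈ K, O p ∈ K)
    (M : Matrix (SIdx a b) (SIdx a b) ℂ)
    (hM : ∀ q, evN (O (spinVec a b q)) = evN (∑ r, M r q • spinVec a b r)) (j i : Fib 0 (a, b)) :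
    ip (Q j.1) (O (Q i.1)) = (spinR a b * M * spinQ a b) j i := by
  have hsub : Q i.1 - ∑ q, spinQ a b q i • spinVec a b q ∈ K := by
    rw [K, LinearMap.mem_ker, map_sub, ← spinQ_spec, sub_self]
  have h1 : evN (O (Q i.1)) = evN (∑ q, spinQ a b q i • ∑ r, M r q • spinVec a b r) := by
    have h2 : evN (O (Q i.1 - ∑ q, spinQ a b q i • spinVec a b q)) = 0 :=
      LinearMap.mem_ker.1 (hK _ hsub)
    rw [map_sub, map_sub, sub_eq_zero] at h2
    rw [h2]
    simp only [map_sum, map_smul, hM]
  rw [ip_congr rfl h1, Matrix.mul_apply, ip_sum_right]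
  refine Finset.sum_congr rfl fun q _ => ?_
  rw [ip_smul_right, ip_sum_right, Matrix.mul_apply, Finset.sum_mul, Finset.mul_sum]
  refine Finset.sum_congr rfl fun r _ => ?_
  rw [ip_smul_right, spinR, Matrix.of_apply, cfQ]
  ring

end

end Vale.Agent.P225.Alg
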